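import Vale.Agent.P011Z.Cl.ZD

/-!
Classification of the forms: block D4c, the stabilizer of the lines of the idempotents.
-/

open Matrix Module

noncomputable section

namespace Vale.Agent.P011Z.Cl.D4cx

open Vale.Agent.P011.D4 Vale.Agent.P011.D4.Oct Vale.Agent.P011.E6 Vale.Agent.P011.E6.Alb

open ZDx

theorem zA_lin : IsLinearMap Om fun a => zorn 0 0 a 0 := by
  refine ⟨fun x y => ?_, fun t x => ?_⟩ <;> apply z_ext <;>
    simp only [zp_add, zm_add, za_add, zb_add, zp_smul, zm_smul, za_smul, zb_smul, zp_zorn,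
      zm_zorn, za_zorn, zb_zorn, add_zero, mul_zero, smul_zero]

theorem zp_neg (x : O) : zp (-x) = -zp x := z_lin.1.map_neg x

theorem zm_neg (x : O) : zm (-x) = -zm x := z_lin.2.1.map_neg x

theorem za_neg (x : O) : za (-x) = -za x := z_lin.2.2.1.map_neg x

theorem zb_neg (x : O) : zb (-x) = -zb x := z_lin.2.2.2.map_neg x

theorem z_split (y : O) :
    y = zp y • ep + zm y • em + zorn 0 0 (za y) 0 + zorn 0 0 0 (zb y) := by
  apply z_ext <;>
    simp only [ep, em, zp_add, zm_add, za_add, zb_add, zp_smul, zm_smul, za_smul, zb_smul, zp_zorn,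
      zm_zorn, za_zorn, zb_zorn, add_zero, zero_add, mul_zero, mul_one, smul_zero]

theorem ep_ne : ep ≠ 0 := fun h => by
  have h1 := congrArg zp h
  rw [ep, zp_zorn, zp_zero] at h1
  exact one_ne_zero h1

theorem em_ne : em ≠ 0 := fun h => by
  have h1 := congrArg zm h
  rw [em, zm_zorn, zm_zero] at h1
  exact one_ne_zero h1

theorem star_ep (y : O) : star (ep * y) = zorn 0 (zp y) (-za y) 0 := by
  apply z_ext <;>
    simp [ep, (z_star _).1, (z_star _).2.1, (z_star _).2.2.1, (z_star _).2.2.2, (z_mul _ _).1,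
      (z_mul _ _).2.1, (z_mul _ _).2.2.1, (z_mul _ _).2.2.2, zp_zorn, zm_zorn, za_zorn, zb_zorn]

theorem star_em (y : O) : star (em * y) = zorn (zm y) 0 0 (-zb y) := by
  apply z_ext <;>
    simp [em, (z_star _).1, (z_star _).2.1, (z_star _).2.2.1, (z_star _).2.2.2, (z_mul _ _).1,
      (z_mul _ _).2.1, (z_mul _ _).2.2.1, (z_mul _ _).2.2.2, zp_zorn, zm_zorn, za_zorn, zb_zorn]

theorem star_smul_mul (t : Om) (x y : O) : star (t • x * y) = t • star (x * y) := by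
  apply z_ext <;>
    simp only [(z_star _).1, (z_star _).2.1, (z_star _).2.2.1, (z_star _).2.2.2, (z_mul _ _).1,
      (z_mul _ _).2.1, (z_mul _ _).2.2.1, (z_mul _ _).2.2.2, zp_smul, zm_smul, za_smul, zb_smul,
      smul_dotProduct, map_smul, LinearMap.smul_apply, smul_eq_mul]
  · ring
  · ring
  · module
  · module

theorem zA_neg (a : Fin 3 → Om) : zorn 0 0 (-a) 0 = (-1 : Om) • zorn 0 0 a 0 := by
  rw [← zA_lin.map_smul, neg_one_smul]

theorem zB_neg (b : Fin 3 → Om) : zorn 0 0 0 (-b) = (-1 : Om) • zorn 0 0 0 b := by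
  apply z_ext <;> simp [zp_neg, zm_neg, za_neg, zb_neg, zp_zorn, zm_zorn, za_zorn, zb_zorn]

theorem zst {f : J → J} (hf : Sim 1 f) (hp : Prm 1 f)
    (h1 : ∀ i, ∃ t : Om, f (ins i ep) = t • ins i ep)
    (h2 : ∀ i, ∃ t : Om, f (ins i em) = t • ins i em) :
    ∃ (z V : Fin 3 → Om) (R : Matrix (Fin 3) (Fin 3) Om), (∀ i, z i ≠ 0) ∧ (∀ i, V i ≠ 0) ∧
      R.det = V 0 * V 1 * V 2 ∧ ∀ x, f x = sc z (gl3 R V x) := by
  obtain ⟨l, hl0, hl⟩ := hf.mult
  obtain ⟨c, hc0, hc⟩ := Prcx.exists_c hf.toSemi hp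
  obtain ⟨t, hts, ht⟩ := hp.slot hf
  obtain ⟨e1, e2, e3⟩ := Prm.triple hf.toSemi hl0 hl hc ht
  choose la hla using h1
  choose mu hmu using h2
  have ta : ∀ i x y, t i (x + y) = t i x + t i y := fun i => (hts i).add
  have tm : ∀ i (s : Om) x, t i (s • x) = s • t i x := fun i => (hts i).smul
  have tp : ∀ i, t i ep = la i • ep := fun i => Prcx.ins_inj (i := i) (by
    rw [(ins_lin i).map_smul, ← hla]
    exact (ht i ep).symm)
  have tq : ∀ i, t i em = mu i • em := fun i => Prcx.ins_inj (i := i) (by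
    rw [(ins_lin i).map_smul, ← hmu]
    exact (ht i em).symm)
  have la0 : ∀ i, la i ≠ 0 := fun i h0 => (hts i).ne ep_ne (by rw [tp, h0, zero_smul])
  have mu0 : ∀ i, mu i ≠ 0 := fun i h0 => (hts i).ne em_ne (by rw [tq, h0, zero_smul])
  have kA : ∀ i a, la (i + 1) • zorn 0 (zp (t (i + 2) (zorn 0 0 a 0)))
      (-za (t (i + 2) (zorn 0 0 a 0))) 0 = c i • (-1 : Om) • t i (zorn 0 0 a 0) := fun i a => by
    have h := e3 i ep (zorn 0 0 a 0)
    rwa [tp, star_smul_mul, star_ep, star_ep, zp_zorn, za_zorn, zA_neg, tm] at h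
  have kB : ∀ i b, mu (i + 1) • zorn (zm (t (i + 2) (zorn 0 0 0 b))) 0 0
      (-zb (t (i + 2) (zorn 0 0 0 b))) = c i • (-1 : Om) • t i (zorn 0 0 0 b) := fun i b => by
    have h := e3 i em (zorn 0 0 0 b)
    rwa [tq, star_smul_mul, star_em, star_em, zm_zorn, zb_zorn, zB_neg, tm] at h
  have A1 : ∀ i a, zp (t i (zorn 0 0 a 0)) = 0 := fun i a => by
    simpa [zp_neg, zp_smul, zp_zorn, hc0] using congrArg zp (kA i a)
  have A2 : ∀ i a, zm (t i (zorn 0 0 a 0)) = 0 := fun i a => by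
    simpa [zm_neg, zm_smul, zm_zorn, hc0, A1] using congrArg zm (kA i a)
  have A4 : ∀ i a, zb (t i (zorn 0 0 a 0)) = 0 := fun i a => by
    simpa [zb_neg, zb_smul, zb_zorn, hc0] using congrArg zb (kA i a)
  have A3 : ∀ i a, la (i + 1) • za (t (i + 2) (zorn 0 0 a 0)) = c i • za (t i (zorn 0 0 a 0)) :=
    fun i a => by simpa [za_neg, za_smul, za_zorn] using congrArg za (kA i a)
  have B2 : ∀ i b, zm (t i (zorn 0 0 0 b)) = 0 := fun i b => by
    simpa [zm_neg, zm_smul, zm_zorn, hc0] using congrArg zm (kB i b)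
  have B1 : ∀ i b, zp (t i (zorn 0 0 0 b)) = 0 := fun i b => by
    simpa [zp_neg, zp_smul, zp_zorn, hc0, B2] using congrArg zp (kB i b)
  have B3 : ∀ i b, za (t i (zorn 0 0 0 b)) = 0 := fun i b => by
    simpa [za_neg, za_smul, za_zorn, hc0] using congrArg za (kB i b)
  have r1 : ∀ i, la (i + 1) * la (i + 2) = c i * mu i := fun i => by
    have h := e3 i ep ep
    have h' : star (ep * ep) = em := by
      rw [star_ep, ep, zp_zorn, za_zorn, neg_zero, em]
    rw [h', tp, tp, tq, star_smul_mul, star_ep] at h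
    simpa [zm_smul, zm_zorn, zp_smul, zp_zorn, ep, em] using congrArg zm h
  have r2 : ∀ i, la i * mu i = c (i + 1) * c (i + 2) := fun i => by
    have h := e2 i (ep + em)
    rw [ta, tp, tq] at h
    simpa [norm_z, zp_add, zm_add, za_add, zb_add, zp_smul, zm_smul, za_smul, zb_smul, zp_zorn,
      zm_zorn, za_zorn, zb_zorn, ep, em] using h
  have r3 : ∀ i a b, za (t i (zorn 0 0 a 0)) ⬝ᵥ zb (t i (zorn 0 0 0 b)) =
      c (i + 1) * c (i + 2) * (a ⬝ᵥ b) := fun i a b => by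
    have h := e2 i (zorn 0 0 a 0 + zorn 0 0 0 b)
    rw [ta] at h
    simpa [norm_z, zp_add, zm_add, za_add, zb_add, zp_zorn, zm_zorn, za_zorn, zb_zorn, A1, A2, A4,
      B1, B2, B3] using h
  obtain ⟨φ, hφ⟩ := (hts 0).lin
  obtain ⟨R, hR⟩ : ∃ R : Matrix (Fin 3) (Fin 3) Om, ∀ a, R *ᵥ a = za (t 0 (zorn 0 0 a 0)) :=
    ⟨LinearMap.toMatrix' (z_lin.2.2.1.mk' _ ∘ₗ φ.toLinearMap ∘ₗ zA_lin.mk' _), fun a => by
      rw [LinearMap.toMatrix'_mulVec, ← hφ]
      rfl⟩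
  have a0 := la0 0
  have a1 := la0 1
  have a2 := la0 2
  have c0 := hc0 0
  have c1 := hc0 1
  have c2 := hc0 2
  have m0 : mu 0 = c 1 * c 2 / la 0 := by
    rw [eq_div_iff a0, mul_comm]
    exact r2 0
  have m1 : mu 1 = c 2 * c 0 / la 1 := by
    rw [eq_div_iff a1, mul_comm]
    exact r2 1
  have m2 : mu 2 = c 0 * c 1 / la 2 := by
    rw [eq_div_iff a2, mul_comm]
    exact r2 2
  have r4 : la 1 = c 0 * c 1 * c 2 / (la 0 * la 2) := by
    have h : la 1 * la 2 = c 0 * mu 0 := r1 0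
    rw [m0] at h
    field_simp at h ⊢
    linear_combination h
  obtain ⟨z, z0, z1, z2⟩ : ∃ z : Fin 3 → Om, z 0 = 1 ∧ z 1 = la 2 / c 1 ∧
      z 2 = la 0 * la 2 / (c 1 * c 2) := ⟨![1, la 2 / c 1, la 0 * la 2 / (c 1 * c 2)], rfl, rfl, rfl⟩
  obtain ⟨V, V0, V1, V2⟩ : ∃ V : Fin 3 → Om, V 0 = la 1 * c 1 / la 2 ∧ V 1 = mu 0 ∧ V 2 = la 0 :=
    ⟨![la 1 * c 1 / la 2, mu 0, la 0], rfl, rfl, rfl⟩
  have hz : ∀ i, z i ≠ 0 := by
    simp only [Fin.forall_fin_succ, Fin.succ_zero_eq_one, Fin.succ_one_eq_two, IsEmpty.forall_iff,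
      z0, z1, z2]
    refine ⟨one_ne_zero, ?_, ?_, trivial⟩ <;> positivity
  have hV : ∀ i, V i ≠ 0 := by
    have := mu0 0
    simp only [Fin.forall_fin_succ, Fin.succ_zero_eq_one, Fin.succ_one_eq_two, IsEmpty.forall_iff,
      V0, V1, V2]
    refine ⟨?_, this, a0, trivial⟩
    positivity
  have hA : ∀ i a, za (t i (zorn 0 0 a 0)) = z i • (R *ᵥ a) := by
    have k1 : ∀ a, za (t 1 (zorn 0 0 a 0)) = z 1 • (R *ᵥ a) := fun a => by
      have h : la 2 • za (t 0 (zorn 0 0 a 0)) = c 1 • za (t 1 (zorn 0 0 a 0)) := A3 1 a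
      rw [z1, hR, div_eq_inv_mul, ← smul_smul, h, smul_smul, inv_mul_cancel₀ c1, one_smul]
    have k2 : ∀ a, za (t 2 (zorn 0 0 a 0)) = z 2 • (R *ᵥ a) := fun a => by
      have h : la 0 • za (t 1 (zorn 0 0 a 0)) = c 2 • za (t 2 (zorn 0 0 a 0)) := A3 2 a
      refine smul_right_injective _ c2 ?_
      simp only
      rw [← h, k1, smul_smul, smul_smul, z1, z2]
      congr 1
      field_simp
    intro i a
    fin_cases i
    · change za (t 0 (zorn 0 0 a 0)) = z 0 • (R *ᵥ a)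
      rw [z0, one_smul, hR]
    · exact k1 a
    · exact k2 a
  have q : ∀ i, z (i + 1) * z (i + 2) / z i * V i = c i ∧ z i * V (i + 2) = la i ∧
      z i * V (i + 1) = mu i ∧ z i * (z i * (V (i + 1) * V (i + 2))) = c (i + 1) * c (i + 2) := by
    intro i
    fin_cases i
    · change z 1 * z 2 / z 0 * V 0 = c 0 ∧ z 0 * V 2 = la 0 ∧ z 0 * V 1 = mu 0 ∧
        z 0 * (z 0 * (V 1 * V 2)) = c 1 * c 2
      rw [z0, z1, z2, V0, V1, V2, m0, r4]
      refine ⟨?_, ?_, ?_, ?_⟩ <;> field_simp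
    · change z 2 * z 0 / z 1 * V 1 = c 1 ∧ z 1 * V 0 = la 1 ∧ z 1 * V 2 = mu 1 ∧
        z 1 * (z 1 * (V 2 * V 0)) = c 2 * c 0
      rw [z0, z1, z2, V0, V1, V2, m0, m1, r4]
      refine ⟨?_, ?_, ?_, ?_⟩ <;> field_simp
    · change z 0 * z 1 / z 2 * V 2 = c 2 ∧ z 2 * V 1 = la 2 ∧ z 2 * V 0 = mu 2 ∧
        z 2 * (z 2 * (V 0 * V 1)) = c 0 * c 1
      rw [z0, z1, z2, V0, V1, V2, m0, m2, r4]
      refine ⟨?_, ?_, ?_, ?_⟩ <;> field_simp
  have hdet : R.det = V 0 * V 1 * V 2 := by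
    have h := hl (jm 0 fun i => zorn 0 0 (Pi.single i 1) 0)
    have k := Prcx.coord hf.toSemi hc ht (jm 0 fun i => zorn 0 0 (Pi.single i 1) 0)
    have k1 : ∀ i, dg (f (jm 0 fun i => zorn 0 0 (Pi.single i 1) 0)) i = 0 := fun i => by
      simpa [dg_jm] using (k i).1
    have k2 : ∀ i, sl (f (jm 0 fun i => zorn 0 0 (Pi.single i 1) 0)) i =
        t i (zorn 0 0 (Pi.single i 1) 0) := fun i => by
      simpa [sl_jm] using (k i).2
    have k3 : crossProduct (Pi.single 0 1 : Fin 3 → Om) (Pi.single 1 1) ⬝ᵥ Pi.single 2 1 = 1 := by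
      simp [crossProduct]
    rw [cub_z, cub_z] at h
    simp only [k1, k2, A1, A2, A4, hA, dg_jm, sl_jm, zp_zorn, zm_zorn, za_zorn, zb_zorn, map_smul,
      LinearMap.smul_apply, smul_dotProduct, dotProduct_smul, cross_dot, k3, Pi.zero_apply,
      dotProduct_zero, mul_zero, sub_zero, zero_add, add_zero, smul_eq_mul, map_one,
      mul_one] at h
    rw [← e1, z0, z1, z2] at h
    rw [V0, V1, V2, m0, r4]
    field_simp at h ⊢
    linear_combination h
  have hR0 : R.det ≠ 0 := by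
    rw [hdet]
    exact mul_ne_zero (mul_ne_zero (hV 0) (hV 1)) (hV 2)
  have hB : ∀ i b, zb (t i (zorn 0 0 0 b)) = z i • (V (i + 1) * V (i + 2)) • (Rᵀ⁻¹ *ᵥ b) := by
    intro i b
    refine dotProduct_eq _ _ fun u => ?_
    have h := r3 i (R⁻¹ *ᵥ u) b
    have h' := dot_inv hR0 (R⁻¹ *ᵥ u) b
    rw [hA] at h
    rw [mulVec_mulVec, mul_nonsing_inv _ hR0.isUnit, one_mulVec] at h h'
    rw [smul_dotProduct, ← h', ← (q i).2.2.2, smul_eq_mul] at h
    rw [smul_dotProduct, smul_dotProduct, dotProduct_comm, dotProduct_comm _ u, smul_eq_mul,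
      smul_eq_mul]
    refine mul_left_cancel₀ (hz i) ?_
    linear_combination h
  refine ⟨z, V, R, hz, hV, hdet, fun x => j_ext (fun i => ?_) fun i => ?_⟩
  · have h : dg (f x) i = c i * dg x i := (Prcx.coord hf.toSemi hc ht x i).1
    rw [h, Prcx.dg_sc, dg_gl3, ← mul_assoc, (q i).1]
  · have h : sl (f x) i = t i (sl x i) := (Prcx.coord hf.toSemi hc ht x i).2
    rw [h, Prcx.sl_sc, sl_gl3]
    generalize sl x i = y
    conv_lhs => rw [z_split y]
    rw [ta, ta, ta, tm, tm, tp, tq]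
    apply z_ext <;>
      simp only [ep, em, zp_add, zm_add, za_add, zb_add, zp_smul, zm_smul, za_smul, zb_smul,
        zp_zorn, zm_zorn, za_zorn, zb_zorn, A1, A2, A4, B1, B2, B3, hA, hB, add_zero, zero_add,
        mul_zero, mul_one, smul_zero]
    · rw [← (q i).2.1]
      ring
    · rw [← (q i).2.2.1]
      ring

end Vale.Agent.P011Z.Cl.D4cx

end
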